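import Mathlib
import Vale.Agent.Lib.P248.helper1.ConeAux

/-!
# P248 (helper70, backup copy of pool leaf CQC1b)

The polar of the cone about the point `(τ h, (1 - τ) ζ + τ c)`, `ζ ∈ D`, lies in the shear
preimage of the slab model.
-/

namespace Vale.Agent.Lib.P248.H70

open MeasureTheory Set
open scoped ENNReal
open Vale.Agent.Lib.P227 Vale.Agent.Lib.P248.H1

/-- The pairing of a cone point minus the centre with a dual vector. -/
theorem inner_cone_sub {n : ℕ} (c ζ d : EuclideanSpace ℝ (Fin n)) (h τ r : ℝ)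
    (y : EuclideanSpace ℝ (Fin (n + 1))) :
    inner ℝ (ecomb (r * h) ((1 - r) • d + r • c) - ecomb (τ * h) ((1 - τ) • ζ + τ • c)) y
      = (r - τ) * (h * y 0 + inner ℝ (c - ζ) (etail y))
        + (1 - r) * inner ℝ (d - ζ) (etail y) := by
  have hy : y = ecomb (y 0) (etail y) := (ecomb_eta y).symm
  rw [inner_sub_left]
  conv_lhs => rw [hy]
  rw [inner_ecomb, inner_ecomb]
  simp only [inner_add_left, real_inner_smul_left, inner_sub_left]
  ring

theorem polar_subset_shear_preimage {n : ℕ} (D : Set (EuclideanSpace ℝ (Fin n)))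
    (c ζ : EuclideanSpace ℝ (Fin n)) (hζ : ζ ∈ D) (h τ : ℝ) (hh : 0 < h) (hτ0 : 0 < τ)
    (hτ1 : τ < 1) :
    polarAt (coneE D c h) (ecomb (τ * h) ((1 - τ) • ζ + τ • c)) ⊆
      shear (c - ζ) h ⁻¹' polarModel D ζ τ := by
  have _hpos := hh
  intro y hy
  have hbase : ∀ d ∈ D, inner ℝ (d - ζ) (etail y)
      ≤ 1 + τ * (h * y 0 + inner ℝ (c - ζ) (etail y)) := by
    intro d hd
    have hmem : ecomb ((0 : ℝ) * h) (((1 : ℝ) - 0) • d + (0 : ℝ) • c) ∈ coneE D c h :=
      ⟨d, hd, 0, le_refl 0, zero_le_one, rfl⟩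
    have h1 := hy _ hmem
    rw [inner_cone_sub] at h1
    linarith
  have hapex : (1 - τ) * (h * y 0 + inner ℝ (c - ζ) (etail y)) ≤ 1 := by
    have hmem : ecomb ((1 : ℝ) * h) (((1 : ℝ) - 1) • ζ + (1 : ℝ) • c) ∈ coneE D c h :=
      ⟨ζ, hζ, 1, zero_le_one, le_refl 1, rfl⟩
    have h1 := hy _ hmem
    rw [inner_cone_sub] at h1
    linarith
  have hlow : -1 ≤ τ * (h * y 0 + inner ℝ (c - ζ) (etail y)) := by
    have h1 := hbase ζ hζ
    rw [sub_self, inner_zero_left] at h1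
    linarith
  show shear (c - ζ) h y ∈ polarModel D ζ τ
  unfold shear polarModel
  simp only [Set.mem_ofPred_eq, ecomb_zero, etail_ecomb] at *
  refine ⟨?_, ?_, hbase⟩
  · rw [div_le_iff₀ hτ0]
    linarith
  · rw [le_div_iff₀ (by linarith)]
    linarith

end Vale.Agent.Lib.P248.H70
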