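import Mathlib
import Vale.Agent.Lib.P248.helper25.ABDefs

/-!
# P248, pool job AB9 (backup route): three volume facts

* `vol_affine_preimage`: the preimage of any set under `z ↦ a⁻¹ • (c • z - w)` has volume
  `(a / c) ^ n` times the volume of the set.
* `vol_pos_part`: a set in the closed positive orthant has the same volume as its part in the
  open positive orthant.
* `lintegral_pow_cone`: `∫_0^a ((a - s) / a) ^ n ds = a / (n + 1)`.
-/

namespace Vale.Agent.Lib.P248.H70

open Vale.Agent.Lib.P248.H25 MeasureTheory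
open scoped ENNReal

theorem vol_affine_preimage {n : ℕ} (S : Set (Fin n → ℝ)) {a c : ℝ} (ha : 0 < a)
    (hc : 0 < c) (w : Fin n → ℝ) :
    volume ((fun z : Fin n → ℝ => a⁻¹ • (c • z - w)) ⁻¹' S) =
      ENNReal.ofReal ((a / c) ^ n) * volume S := by
  have hca : c / a ≠ 0 := (div_pos hc ha).ne'
  have hset : (fun z : Fin n → ℝ => a⁻¹ • (c • z - w)) ⁻¹' S =
      (fun z : Fin n → ℝ => (c / a) • z) ⁻¹' ((fun y : Fin n → ℝ => y + (-(a⁻¹ • w))) ⁻¹' S) := by
    ext z
    simp only [Set.mem_preimage]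
    have h : a⁻¹ • (c • z - w) = (c / a) • z + (-(a⁻¹ • w)) := by
      rw [smul_sub, smul_smul, ← sub_eq_add_neg]
      congr 2
      rw [div_eq_inv_mul]
    rw [h]
  rw [hset, Measure.addHaar_preimage_smul volume hca, measure_preimage_add_right]
  congr 2
  rw [Module.finrank_fin_fun, ← inv_pow, abs_of_nonneg (by positivity), inv_div]

theorem vol_pos_part {n : ℕ} {S : Set (Fin n → ℝ)} (hS : ∀ b ∈ S, ∀ j, 0 ≤ b j) :
    volume (S ∩ {b | ∀ j, 0 < b j}) = volume S := by
  apply le_antisymm (measure_mono Set.inter_subset_left)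
  have hsub : S ⊆ (S ∩ {b | ∀ j, 0 < b j}) ∪ ⋃ j : Fin n, {b : Fin n → ℝ | b j = 0} := by
    intro b hb
    by_cases hpos : ∀ j, 0 < b j
    · exact Or.inl ⟨hb, hpos⟩
    · right
      obtain ⟨j, hj⟩ := not_forall.1 hpos
      exact Set.mem_iUnion.2 ⟨j, le_antisymm (not_lt.1 hj) (hS b hb j)⟩
  have hnull : volume (⋃ j : Fin n, {b : Fin n → ℝ | b j = 0}) = 0 := by
    rw [measure_iUnion_null_iff]
    intro j
    rw [volume_pi]
    exact Measure.pi_hyperplane (fun _ : Fin n => (volume : Measure ℝ)) j 0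
  calc volume S ≤ volume ((S ∩ {b | ∀ j, 0 < b j}) ∪ ⋃ j : Fin n, {b : Fin n → ℝ | b j = 0}) :=
        measure_mono hsub
    _ ≤ volume (S ∩ {b | ∀ j, 0 < b j}) + volume (⋃ j : Fin n, {b : Fin n → ℝ | b j = 0}) :=
        measure_union_le _ _
    _ = volume (S ∩ {b | ∀ j, 0 < b j}) := by rw [hnull, add_zero]

theorem lintegral_pow_cone (n : ℕ) {a : ℝ} (ha : 0 < a) :
    ∫⁻ s in Set.Ioo 0 a, ENNReal.ofReal (((a - s) / a) ^ n) = ENNReal.ofReal (a / (n + 1)) := by
  have hcont : Continuous fun s : ℝ => ((a - s) / a) ^ n := by fun_prop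
  have hint : ∫ s in Set.Ioo 0 a, ((a - s) / a) ^ n = a / (n + 1) := by
    rw [← integral_Ioc_eq_integral_Ioo, ← intervalIntegral.integral_of_le ha.le]
    have hderiv : ∀ s ∈ Set.uIcc 0 a,
        HasDerivAt (fun s : ℝ => -(a / ((n : ℝ) + 1)) * ((a - s) / a) ^ (n + 1))
          (((a - s) / a) ^ n) s := by
      intro s _
      have h1 : HasDerivAt (fun s : ℝ => (a - s) / a) (-1 / a) s := by
        have := ((hasDerivAt_id s).const_sub a).div_const a
        simpa using this
      have h2 : HasDerivAt (fun s : ℝ => -(a / ((n : ℝ) + 1)) * ((a - s) / a) ^ (n + 1))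
          (-(a / ((n : ℝ) + 1)) * (((n + 1 : ℕ) : ℝ) * ((a - s) / a) ^ (n + 1 - 1) * (-1 / a))) s :=
        (h1.pow (n + 1)).const_mul (-(a / ((n : ℝ) + 1)))
      refine h2.congr_deriv ?_
      have hn : ((n : ℝ) + 1) ≠ 0 := by positivity
      have ha' : a ≠ 0 := ha.ne'
      rw [Nat.add_sub_cancel]
      push_cast
      field_simp
    rw [intervalIntegral.integral_eq_sub_of_hasDerivAt hderiv (hcont.intervalIntegrable 0 a)]
    have hn : ((n : ℝ) + 1) ≠ 0 := by positivity
    simp [ha.ne']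
  rw [← hint]
  symm
  apply ofReal_integral_eq_lintegral_ofReal
  · exact (hcont.integrableOn_Icc (a := 0) (b := a)).mono_set Set.Ioo_subset_Icc_self
  · refine (ae_restrict_iff' measurableSet_Ioo).2 (Filter.Eventually.of_forall ?_)
    intro s hs
    have : 0 ≤ (a - s) / a := div_nonneg (by linarith [hs.2]) ha.le
    exact pow_nonneg this n

end Vale.Agent.Lib.P248.H70
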