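import Mathlib
import Vale.Agent.Lib.P248.helper1.ConeAux

/-!
# P248 (helper70, backup copy of pool leaf CQD2)

For `ζ` in the interior of `D` and `0 < τ < 1` the point `(τ h, (1 - τ) ζ + τ c)` is an
interior point of the cone over `D` with apex `(h, c)`.
-/

namespace Vale.Agent.Lib.P248.H70

open MeasureTheory Set
open scoped ENNReal
open Vale.Agent.Lib.P227 Vale.Agent.Lib.P248.H1

theorem mem_interior_coneE {n : ℕ} (D : Set (EuclideanSpace ℝ (Fin n)))
    (c ζ : EuclideanSpace ℝ (Fin n)) (hζ : ζ ∈ interior D) (h τ : ℝ) (hh : 0 < h)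
    (hτ0 : 0 < τ) (hτ1 : τ < 1) :
    ecomb (τ * h) ((1 - τ) • ζ + τ • c) ∈ interior (coneE D c h) := by
  have hh0 : h ≠ 0 := ne_of_gt hh
  set z : EuclideanSpace ℝ (Fin (n + 1)) := ecomb (τ * h) ((1 - τ) • ζ + τ • c) with hz
  -- the base point seen from the apex
  set g : EuclideanSpace ℝ (Fin (n + 1)) → EuclideanSpace ℝ (Fin n) :=
    fun x => (1 - x 0 / h)⁻¹ • (etail x - (x 0 / h) • c) with hg
  have hz0 : z 0 = τ * h := ecomb_zero _ _
  have hz0h : z 0 / h = τ := by rw [hz0]; field_simp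
  have h1τ : (1 - τ) ≠ 0 := by
    have : 0 < 1 - τ := by linarith
    exact ne_of_gt this
  have hgz : g z = ζ := by
    show (1 - z 0 / h)⁻¹ • (etail z - (z 0 / h) • c) = ζ
    rw [hz0h, hz, etail_ecomb, add_sub_cancel_right, smul_smul, inv_mul_cancel₀ h1τ, one_smul]
  have hc0 : Continuous (fun x : EuclideanSpace ℝ (Fin (n + 1)) => x 0) :=
    (continuous_apply (0 : Fin (n + 1))).comp (PiLp.continuous_ofLp 2 _)
  have hcg : ContinuousAt g z := by
    have hden : ContinuousAt (fun x : EuclideanSpace ℝ (Fin (n + 1)) => (1 - x 0 / h)⁻¹) z := by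
      refine ContinuousAt.inv₀ ?_ ?_
      · exact (continuous_const.sub (hc0.div_const h)).continuousAt
      · rw [hz0h]; exact h1τ
    have hnum : ContinuousAt
        (fun x : EuclideanSpace ℝ (Fin (n + 1)) => etail x - (x 0 / h) • c) z :=
      (continuous_etail.sub ((hc0.div_const h).smul continuous_const)).continuousAt
    exact hden.smul hnum
  have hU1 : {x : EuclideanSpace ℝ (Fin (n + 1)) | 0 < x 0} ∈ nhds z := by
    refine (isOpen_lt continuous_const hc0).mem_nhds ?_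
    show 0 < z 0
    rw [hz0]; positivity
  have hU2 : {x : EuclideanSpace ℝ (Fin (n + 1)) | x 0 < h} ∈ nhds z := by
    refine (isOpen_lt hc0 continuous_const).mem_nhds ?_
    show z 0 < h
    rw [hz0]; nlinarith
  have hU3 : g ⁻¹' interior D ∈ nhds z := by
    refine hcg.preimage_mem_nhds (isOpen_interior.mem_nhds ?_)
    rw [hgz]; exact hζ
  rw [mem_interior_iff_mem_nhds]
  refine Filter.mem_of_superset (Filter.inter_mem (Filter.inter_mem hU1 hU2) hU3) ?_
  rintro x ⟨⟨hx1, hx2⟩, hx3⟩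
  have hx1' : 0 < x 0 := hx1
  have hx2' : x 0 < h := hx2
  have hr0 : 0 ≤ x 0 / h := div_nonneg hx1'.le hh.le
  have hr1 : x 0 / h ≤ 1 := by rw [div_le_one hh]; exact hx2'.le
  have hr1' : (1 - x 0 / h) ≠ 0 := by
    have : x 0 / h < 1 := by rw [div_lt_one hh]; exact hx2'
    have : 0 < 1 - x 0 / h := by linarith
    exact ne_of_gt this
  refine ⟨g x, interior_subset hx3, x 0 / h, hr0, hr1, ?_⟩
  have e1 : x 0 / h * h = x 0 := div_mul_cancel₀ _ hh0
  have e2 : (1 - x 0 / h) • g x + (x 0 / h) • c = etail x := by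
    show (1 - x 0 / h) • ((1 - x 0 / h)⁻¹ • (etail x - (x 0 / h) • c)) + (x 0 / h) • c = etail x
    rw [smul_smul, mul_inv_cancel₀ hr1', one_smul, sub_add_cancel]
  rw [e1, e2, ecomb_eta]

end Vale.Agent.Lib.P248.H70
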